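import Vale.Agent.P253.Bdl.B1
import Vale.Agent.P272.K.C2.ChernLu

/-!
The Hermitian form of a real bilinear form which is invariant under the complex structure.
-/

open scoped ComplexConjugate ComplexOrder Matrix
open Complex

noncomputable section

namespace Vale.Agent.P253Z.Br

open Vale.Agent.P272.K

variable {n : ℕ}

/-- real bilinear forms -/
abbrev BF (n : ℕ) : Type := Cm n →L[ℝ] Cm n →L[ℝ] ℝ

/-- the basis vectors -/
abbrev ev (j : Fin n) : Cm n := Pi.single j 1

/-- the Hermitian form of `g` -/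
def hf (g : BF n) (u v : Cm n) : ℂ := (g u v : ℂ) + I * (g u (I • v) : ℂ)

/-- the matrix of the Hermitian form -/
def wg (g : BF n) : Matrix (Fin n) (Fin n) ℂ := Matrix.of fun j k => hf g (ev j) (ev k)

/-- `g` is symmetric and invariant under the complex structure -/
structure Herm (g : BF n) : Prop where
  symm : ∀ u v, g u v = g v u
  herm : ∀ u v, g (I • u) (I • v) = g u v

theorem single_I (k : Fin n) : (Pi.single k I : Cm n) = I • ev k := by
  rw [← Pi.single_smul, smul_eq_mul, mul_one]

theorem smul_eq (c : ℂ) (u : Cm n) : c • u = c.re • u + c.im • (I • u) := by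
  ext j
  simp only [Pi.smul_apply, Pi.add_apply, smul_eq_mul, real_smul]
  conv_lhs => rw [← re_add_im c]
  ring

theorem II (u : Cm n) : I • I • u = -u := by
  rw [smul_smul, I_mul_I, neg_one_smul]

theorem sum_ev (u : Cm n) : ∑ j, u j • ev j = u := by
  ext k
  simp [Finset.sum_apply, Pi.single_apply]

variable {g g' : BF n}

theorem Herm.I_left (h : Herm g) (u v : Cm n) : g (I • u) v = -g u (I • v) := by
  rw [← h.herm (I • u) v, II, map_neg, _root_.neg_apply]

theorem Herm.I_self (h : Herm g) (u : Cm n) : g u (I • u) = 0 := by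
  have h1 := h.I_left u u
  rw [h.symm] at h1
  linarith

theorem hf_add_left (u u' v : Cm n) : hf g (u + u') v = hf g u v + hf g u' v := by
  simp only [hf, map_add, _root_.add_apply]
  push_cast
  ring

theorem hf_zero_left (v : Cm n) : hf g 0 v = 0 := by simp [hf]

theorem Herm.hf_smul_left (h : Herm g) (c : ℂ) (u v : Cm n) : hf g (c • u) v = c * hf g u v := by
  rw [smul_eq c u]
  simp only [hf, map_add, map_smul, _root_.add_apply, _root_.smul_apply,
    smul_eq_mul, h.I_left u v, h.herm]
  push_cast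
  conv_rhs => rw [← re_add_im c]
  linear_combination (-(c.im : ℂ) * (g u (I • v) : ℂ)) * I_mul_I

theorem Herm.hf_conj (h : Herm g) (u v : Cm n) : conj (hf g u v) = hf g v u := by
  simp only [hf, map_add, map_mul, conj_ofReal, conj_I]
  rw [h.symm v u, h.symm v (I • u), h.I_left]
  push_cast
  ring

theorem Herm.hf_self (h : Herm g) (u : Cm n) : hf g u u = g u u := by
  simp [hf, h.I_self]

theorem hf_re (u v : Cm n) : (hf g u v).re = g u v := by simp [hf]

theorem Herm.hf_sum_left (h : Herm g) (c : Fin n → ℂ) (u : Fin n → Cm n) (v : Cm n) :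
    hf g (∑ j, c j • u j) v = ∑ j, c j * hf g (u j) v := by
  induction (Finset.univ : Finset (Fin n)) using Finset.induction_on with
  | empty => simp [hf_zero_left]
  | insert a s ha ih => rw [Finset.sum_insert ha, Finset.sum_insert ha, hf_add_left, ih,
      h.hf_smul_left]

theorem Herm.hf_left (h : Herm g) (u v : Cm n) : hf g u v = ∑ j, u j * hf g (ev j) v := by
  conv_lhs => rw [← sum_ev u]
  exact h.hf_sum_left _ _ _

theorem Herm.hf_right (h : Herm g) (u v : Cm n) :
    hf g u v = ∑ k, hf g u (ev k) * conj (v k) := by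
  rw [← h.hf_conj, h.hf_left, map_sum]
  exact Finset.sum_congr rfl fun k _ => by rw [map_mul, h.hf_conj, mul_comm]

theorem Herm.hf_smul_right (h : Herm g) (c : ℂ) (u v : Cm n) :
    hf g u (c • v) = conj c * hf g u v := by
  rw [← h.hf_conj, h.hf_smul_left, map_mul, h.hf_conj]

theorem Herm.dot (h : Herm g) (u v : Cm n) : u ⬝ᵥ (wg g *ᵥ star v) = hf g u v := by
  rw [h.hf_left]
  refine Finset.sum_congr rfl fun j _ => ?_
  rw [h.hf_right]
  rfl

theorem Herm.isHermitian (h : Herm g) : (wg g).IsHermitian := by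
  ext j k
  exact h.hf_conj _ _

theorem Herm.quad (h : Herm g) (x : Cm n) :
    star x ⬝ᵥ (wg g *ᵥ x) = (g (star x) (star x) : ℂ) := by
  rw [← h.hf_self, ← h.dot, star_star]

theorem Herm.posDef (h : Herm g) (hp : ∀ v, v ≠ 0 → 0 < g v v) : (wg g).PosDef :=
  Matrix.PosDef.of_dotProduct_mulVec_pos h.isHermitian fun x hx => by
    rw [h.quad]
    exact_mod_cast hp _ (star_ne_zero.2 hx)

theorem Herm.posSemidef (h : Herm g) (hp : ∀ v, 0 ≤ g v v) : (wg g).PosSemidef :=
  Matrix.PosSemidef.of_dotProduct_mulVec_nonneg h.isHermitian fun x => by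
    rw [h.quad]
    exact_mod_cast hp _

theorem Herm.sub (h : Herm g) (h' : Herm g') : Herm (g - g') :=
  ⟨fun u v => by simp [h.symm u v, h'.symm u v], fun u v => by simp [h.herm, h'.herm]⟩

theorem Herm.smul (h : Herm g) (c : ℝ) : Herm (c • g) :=
  ⟨fun u v => by simp [h.symm u v], fun u v => by simp [h.herm]⟩

theorem wg_sub (g g' : BF n) : wg (g - g') = wg g - wg g' := by
  ext j k
  simp only [wg, hf, Matrix.of_apply, Matrix.sub_apply, _root_.sub_apply]
  push_cast
  ring

theorem wg_smul (c : ℝ) (g : BF n) : wg (c • g) = (c : ℂ) • wg g := by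
  ext j k
  simp only [wg, hf, Matrix.of_apply, Matrix.smul_apply, _root_.smul_apply,
    smul_eq_mul]
  push_cast
  ring

/-- the matrix of the products of two families of vectors -/
theorem Herm.gram (h : Herm g) (A B : Matrix (Fin n) (Fin n) ℂ) :
    A * wg g * Bᴴ = Matrix.of fun k l => hf g (A k) (B l) := by
  ext k l
  rw [Matrix.of_apply, ← h.dot, Matrix.mul_assoc]
  rfl

theorem wg_change (h' : Herm g') {A : Cm n → Cm n} (hA : ∀ v, A (I • v) = I • A v)
    (hg : ∀ u v, g' (A u) (A v) = g u v) {J : Matrix (Fin n) (Fin n) ℂ}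
    (hJ : ∀ p i, J p i = A (ev i) p) : wg g = Jᵀ * wg g' * J.map (starRingEnd ℂ) := by
  have e : J.map (starRingEnd ℂ) = (Jᵀ)ᴴ := rfl
  rw [e, h'.gram]
  ext k l
  have e1 : ∀ i, Jᵀ i = A (ev i) := fun i => funext fun p => hJ p i
  simp only [Matrix.of_apply, e1, wg, hf, ← hA, hg]

end Vale.Agent.P253Z.Br
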