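import Vale.Agent.P253.Bdl.B2
import Vale.Agent.P284.H608.K.Spec

/-!
The Kähler manifold `M` of the problem in the language of framed charts: definitions.
-/

open scoped Manifold ContDiff Topology Bundle ENNReal
open Set Bundle IsManifold MeasureTheory Complex

noncomputable section

namespace Vale.Agent.P253Z.Br

open Vale.Agent.P253.Mfd Vale.Agent.P272.K

variable {n : ℕ} {M : Type} [MetricSpace M] [ChartedSpace (Cm n) M]

variable (n M) in
/-- The holomorphic charts of `M`. -/
abbrev HC : Type := {e : OpenPartialHomeomorph M (Cm n) // e ∈ maximalAtlas 𝓘(ℂ, Cm n) 1 M}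

variable (n) in
/-- `ψ` is smooth in every holomorphic chart. -/
def Sm (ψ : M → ℝ) : Prop :=
  ∀ e : HC n M, ∀ z ∈ e.1.target, ContDiffAt ℝ ∞ (fun y => ψ (e.1.symm y)) z

/-- The Jacobian determinant of the change of coordinates from `e` to `e'` at the point `z` of the
target of `e`. -/
def jd (e e' : OpenPartialHomeomorph M (Cm n)) (z : Cm n) : ℂ := (jacM e e' (e.symm z)).det

variable [RiemannianBundle (fun x : M => TangentSpace 𝓘(ℝ, Cm n) x)]

/-- The Hermitian matrix `g(e_j, e_k) + i g(e_j, i e_k)` of the metric in the chart `e`. -/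
def wm (e : OpenPartialHomeomorph M (Cm n)) (z : Cm n) : Matrix (Fin n) (Fin n) ℂ :=
  Matrix.of fun j k => (chartMetric e z (Pi.single j 1) (Pi.single k 1) : ℂ) +
    I * (chartMetric e z (Pi.single j 1) (Pi.single k I) : ℂ)

/-- The density of the Riemannian volume in the chart `e`. -/
def dw (e : OpenPartialHomeomorph M (Cm n)) (z : Cm n) : ℝ := (wm e z).det.re

/-- The Ricci form `-∂∂̄ log det w` in the chart `e`. -/
def ric (e : OpenPartialHomeomorph M (Cm n)) (z : Cm n) : Matrix (Fin n) (Fin n) ℂ :=
  -cHess (fun y => Real.log (dw e y)) z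

variable [MeasurableSpace M]

variable (n) in
/-- `μ` is the Riemannian volume: in every holomorphic chart it has the density `det w`. -/
def IsVol (μ : Measure M) : Prop :=
  ∀ (e : HC n M) (f : M → ℝ≥0∞), Measurable f → (∀ x, x ∉ e.1.source → f x = 0) →
    ∫⁻ x, f x ∂μ = ∫⁻ z in e.1.target, f (e.1.symm z) * ENNReal.ofReal (dw e.1 z)

variable (n M) in
open Classical in
/-- The Riemannian volume. -/
def vol : Measure M := if h : ∃ μ : Measure M, IsVol n μ then h.choose else 0

end Vale.Agent.P253Z.Br
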