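import Vale.Agent.P253Z.Br.Alg

/-!
A Kähler metric on an open set: the derivatives of its matrix and the Ricci form.
-/

open scoped ComplexConjugate ComplexOrder Matrix ContDiff Topology
open Complex

set_option maxSynthPendingDepth 3

noncomputable section

namespace Vale.Agent.P253Z.Br

open Vale.Agent.P272.K Vale.Agent.P272.K.C2 Vale.Agent.P253.Mfd

variable {n : ℕ}

theorem sum_dz (f : Cm n → ℂ) (z X : Cm n) :
    ∑ j, X j * dz j f z = (fderiv ℝ f z X - I * fderiv ℝ f z (I • X)) / 2 := by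
  have e : ∀ Y : Cm n, fderiv ℝ f z Y =
      ∑ j, ((Y j).re * fderiv ℝ f z (ev j) + (Y j).im * fderiv ℝ f z (I • ev j)) := fun Y => by
    conv_lhs => rw [← sum_ev Y, map_sum]
    exact Finset.sum_congr rfl fun j _ => by
      rw [smul_eq, map_add, map_smul, map_smul, real_smul, real_smul]
  rw [e X, e (I • X), Finset.mul_sum, ← Finset.sum_sub_distrib, Finset.sum_div]
  refine Finset.sum_congr rfl fun j _ => ?_
  rw [dz, single_I]
  simp only [Pi.smul_apply, smul_eq_mul, mul_re, mul_im, I_re, I_im, zero_mul, one_mul, zero_sub,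
    zero_add, ofReal_neg]
  conv_lhs => rw [← re_add_im (X j)]
  linear_combination (-((X j).im : ℂ) * fderiv ℝ f z (I • ev j) / 2) * I_mul_I

theorem sum_dzb (f : Cm n → ℂ) (z X : Cm n) :
    ∑ j, conj (X j) * dzb j f z = (fderiv ℝ f z X + I * fderiv ℝ f z (I • X)) / 2 := by
  have e : ∀ Y : Cm n, fderiv ℝ f z Y =
      ∑ j, ((Y j).re * fderiv ℝ f z (ev j) + (Y j).im * fderiv ℝ f z (I • ev j)) := fun Y => by
    conv_lhs => rw [← sum_ev Y, map_sum]
    exact Finset.sum_congr rfl fun j _ => by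
      rw [smul_eq, map_add, map_smul, map_smul, real_smul, real_smul]
  rw [e X, e (I • X), Finset.mul_sum, ← Finset.sum_add_distrib, Finset.sum_div]
  refine Finset.sum_congr rfl fun j _ => ?_
  rw [dzb, single_I]
  simp only [Pi.smul_apply, smul_eq_mul, mul_re, mul_im, I_re, I_im, zero_mul, one_mul, zero_sub,
    zero_add, ofReal_neg]
  conv_lhs => rw [← re_add_im (X j)]
  simp only [map_add, map_mul, conj_ofReal, conj_I]
  linear_combination (-((X j).im : ℂ) * fderiv ℝ f z (I • ev j) / 2) * I_mul_I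

/-- the complex Hessian as a quadratic form -/
theorem sum_dz_dzb {f : Cm n → ℂ} {z : Cm n} (hf : ContDiffAt ℝ 2 f z) (X : Cm n) :
    ∑ i, ∑ j, X i * (dz i (dzb j f) z * conj (X j)) =
      (fderiv ℝ (fderiv ℝ f) z X X + fderiv ℝ (fderiv ℝ f) z (I • X) (I • X)) / 4 := by
  have hd : DifferentiableAt ℝ (fderiv ℝ f) z :=
    (hf.fderiv_right (m := 1) (by norm_num)).differentiableAt (by norm_num)
  have h1 : ∀ Y, HasFDerivAt (fun y => fderiv ℝ f y Y) ((fderiv ℝ (fderiv ℝ f) z).flip Y) z :=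
    fun Y => by simpa using hd.hasFDerivAt.clm_apply (hasFDerivAt_const Y z)
  have h2 : ∀ i, ∑ j, X i * (dz i (dzb j f) z * conj (X j)) =
      X i * dz i (fun y => (fderiv ℝ f y X + I * fderiv ℝ f y (I • X)) / 2) z := fun i => by
    simp only [← sum_dzb]
    rw [dz_sum i _ fun j _ => (differentiableAt_dzb j hf).const_mul _, Finset.mul_sum]
    exact Finset.sum_congr rfl fun j _ => by
      rw [dz_const_mul i _ (differentiableAt_dzb j hf), mul_comm (dz _ _ _)]
  have h3 := (((h1 X).add ((h1 (I • X)).const_mul I)).mul_const (2 : ℂ)⁻¹).fderiv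
  have h4 := hf.isSymmSndFDerivAt (by simp) X (I • X)
  simp only [h2]
  rw [sum_dz]
  simp only [div_eq_mul_inv]
  erw [h3]
  simp only [_root_.smul_apply, _root_.add_apply, ContinuousLinearMap.flip_apply, smul_eq_mul, h4]
  linear_combination (-(fderiv ℝ (fderiv ℝ f) z (I • X) (I • X)) / 4) * I_mul_I

/-- the Hermitian form depends linearly on the bilinear form -/
def hfL (u v : Cm n) : BF n →L[ℝ] ℂ :=
  ofRealCLM.comp ((ContinuousLinearMap.apply ℝ ℝ v).comp (ContinuousLinearMap.apply ℝ _ u)) +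
    I • ofRealCLM.comp
      ((ContinuousLinearMap.apply ℝ ℝ (I • v)).comp (ContinuousLinearMap.apply ℝ _ u))

theorem hfL_apply (u v : Cm n) (g : BF n) : hfL u v g = hf g u v := rfl

variable {G : Cm n → BF n} {U : Set (Cm n)} {z : Cm n}

theorem herm_of (h : LocalKahler G U) (hz : z ∈ U) : Herm (G z) := ⟨h.symm z hz, h.herm z hz⟩

theorem posDef_of (h : LocalKahler G U) (hz : z ∈ U) : (wg (G z)).PosDef :=
  (herm_of h hz).posDef (h.pos z hz)

theorem smooth_hf (h : LocalKahler G U) (hz : z ∈ U) (u v : Cm n) :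
    ContDiffAt ℝ ∞ (fun y => hf (G y) u v) z := by
  have := (hfL u v).contDiff.contDiffAt.comp z (h.smooth.contDiffAt (h.isOpen.mem_nhds hz))
  exact this

theorem fderiv_hf (h : LocalKahler G U) (hz : z ∈ U) (u v : Cm n) :
    fderiv ℝ (fun y => hf (G y) u v) z = (hfL u v).comp (fderiv ℝ G z) := by
  have := ((hfL u v).hasFDerivAt.comp z (h.differentiableAt hz).hasFDerivAt).fderiv
  exact this

theorem fderiv_hf' (h : LocalKahler G U) (hz : z ∈ U) (u v X : Cm n) :
    fderiv ℝ (fun y => hf (G y) u v) z X =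
      hf (G z) (chris G z X u) v + hf (G z) u (chris G z X v) := by
  rw [fderiv_hf h hz, ContinuousLinearMap.comp_apply, hfL_apply]
  simp only [hf, h.fderiv_eq hz, h.par z hz]
  push_cast
  ring

theorem fderiv2_hf (h : LocalKahler G U) (hz : z ∈ U) (u v X Y : Cm n) :
    fderiv ℝ (fderiv ℝ fun y => hf (G y) u v) z X Y = hf (fderiv ℝ (fderiv ℝ G) z X Y) u v := by
  have e : (fderiv ℝ fun y => hf (G y) u v) =ᶠ[𝓝 z] fun y =>
      ContinuousLinearMap.compL ℝ _ _ _ (hfL u v) (fderiv ℝ G y) := by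
    filter_upwards [h.isOpen.mem_nhds hz] with y hy using fderiv_hf h hy u v
  have := ((ContinuousLinearMap.compL ℝ (Cm n) _ _ (hfL u v)).hasFDerivAt.comp z
    (h.differentiableAt_fderiv hz).hasFDerivAt).fderiv
  rw [e.fderiv_eq]
  erw [this]
  rfl

theorem sum_dz_hf (h : LocalKahler G U) (hz : z ∈ U) (u v X : Cm n) :
    ∑ j, X j * dz j (fun y => hf (G y) u v) z = hf (G z) (chris G z X u) v := by
  have H := herm_of h hz
  rw [sum_dz, fderiv_hf' h hz, fderiv_hf' h hz, h.par_left hz, h.par_left hz, H.hf_smul_left,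
    H.hf_smul_right, conj_I]
  linear_combination ((hf (G z) u (chris G z X v) - hf (G z) (chris G z X u) v) / 2) * I_mul_I

theorem sum_dzb_hf (h : LocalKahler G U) (hz : z ∈ U) (u v X : Cm n) :
    ∑ j, conj (X j) * dzb j (fun y => hf (G y) u v) z = hf (G z) u (chris G z X v) := by
  have H := herm_of h hz
  rw [sum_dzb, fderiv_hf' h hz, fderiv_hf' h hz, h.par_left hz, h.par_left hz, H.hf_smul_left,
    H.hf_smul_right, conj_I]
  linear_combination ((hf (G z) (chris G z X u) v - hf (G z) u (chris G z X v)) / 2) * I_mul_I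

theorem dz_hf (h : LocalKahler G U) (hz : z ∈ U) (u v : Cm n) (l : Fin n) :
    dz l (fun y => hf (G y) u v) z = hf (G z) (chris G z (ev l) u) v := by
  rw [← sum_dz_hf h hz]
  simp [Pi.single_apply]

theorem wg_closed (h : LocalKahler G U) (hz : z ∈ U) (j k l : Fin n) :
    dz l (fun y => wg (G y) j k) z = dz j (fun y => wg (G y) l k) z := by
  simp only [wg, Matrix.of_apply]
  rw [dz_hf h hz, dz_hf h hz, h.chris_symm hz]

/-- the curvature form `a ↦ Rc G z X a` -/
def cT (G : Cm n → BF n) (z X : Cm n) : BF n :=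
  (G z).bilinearComp (chris G z X) (chris G z X) -
    (1 / 4 : ℝ) • (fderiv ℝ (fderiv ℝ G) z X X + fderiv ℝ (fderiv ℝ G) z (I • X) (I • X))

theorem cT_self (G : Cm n → BF n) (z X a : Cm n) : cT G z X a a = Rc G z X a := by
  simp only [cT, Rc, _root_.sub_apply, _root_.smul_apply, _root_.add_apply, smul_eq_mul,
    ContinuousLinearMap.bilinearComp_apply]
  ring

theorem herm_cT (h : LocalKahler G U) (hz : z ∈ U) (X : Cm n) : Herm (cT G z X) := by
  constructor <;> intro u v <;>
    simp only [cT, _root_.sub_apply, _root_.smul_apply, _root_.add_apply, smul_eq_mul,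
      ContinuousLinearMap.bilinearComp_apply]
  · rw [h.symm z hz, h.fderiv2_symm hz X X u, h.fderiv2_symm hz (I • X) (I • X) u]
  · rw [h.par z hz, h.par z hz, h.herm z hz, h.fderiv2_herm hz, h.fderiv2_herm hz]

theorem mc_wg (h : LocalKahler G U) (hz : z ∈ U) : MC ∞ (fun y => wg (G y)) z :=
  fun _ _ => smooth_hf h hz _ _

theorem smooth_logdet (h : LocalKahler G U) (hz : z ∈ U) :
    ContDiffAt ℝ ∞ (fun y => Real.log (wg (G y)).det.re) z :=
  (reCLM.contDiff.contDiffAt.comp z (mc_wg h hz).det).log (det_re_pos (posDef_of h hz)).ne'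

/-- The Ricci form is the trace of the bisectional curvature. -/
theorem ric_quad (h : LocalKahler G U) (hz : z ∈ U) (X : Cm n) :
    X ⬝ᵥ (-cHess (fun y => Real.log (wg (G y)).det.re) z *ᵥ star X) =
      ((wg (G z))⁻¹ * wg (cT G z X)).trace := by
  have H := herm_of h hz
  have hp : ∀ᶠ y in 𝓝 z, (wg (G y)).PosDef := by
    filter_upwards [h.isOpen.mem_nhds hz] with y hy using posDef_of h hy
  have h2 : MC 2 (fun y => wg (G y)) z := (mc_wg h hz).mono (by norm_cast)
  set w := wg (G z) with hw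
  set Γ : Matrix (Fin n) (Fin n) ℂ := Matrix.of fun k => chris G z X (ev k) with hΓ
  have hu : IsUnit w.det := (posDef_det_ne_zero hp.self_of_nhds).isUnit
  have eA : ∑ i, X i • DM i (fun y => wg (G y)) z = Γ * w := by
    ext k p
    simp only [Matrix.sum_apply, Matrix.smul_apply, smul_eq_mul]
    exact (sum_dz_hf h hz (ev k) (ev p) X).trans (H.hf_left _ _)
  have eB : ∑ j, conj (X j) • DMb j (fun y => wg (G y)) z = w * Γᴴ := by
    ext q l
    simp only [Matrix.sum_apply, Matrix.smul_apply, smul_eq_mul]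
    exact (sum_dzb_hf h hz (ev q) (ev l) X).trans (H.hf_right _ _)
  have eC : wg (cT G z X) = Γ * w * Γᴴ -
      ∑ i, ∑ j, X i • conj (X j) • D2 i j (fun y => wg (G y)) z := by
    rw [H.gram]
    ext k l
    have e1 := sum_dz_dzb ((smooth_hf h hz (ev k) (ev l)).of_le (m := 2) (by norm_cast)) X
    rw [fderiv2_hf h hz, fderiv2_hf h hz] at e1
    simp only [Matrix.sum_apply, Matrix.smul_apply, smul_eq_mul, Matrix.sub_apply, Matrix.of_apply,
      mul_comm (conj (X _))]
    erw [e1]
    have e2 : ∀ k, Γ k = chris G z X (ev k) := fun _ => rfl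
    simp only [wg, Matrix.of_apply, cT, hf, e2, _root_.sub_apply, _root_.smul_apply,
      _root_.add_apply, smul_eq_mul, ContinuousLinearMap.bilinearComp_apply, h.par z hz]
    push_cast
    ring
  have eD : Γ * w * Γᴴ = (Γ * w) * w⁻¹ * (w * Γᴴ) := by
    rw [Matrix.mul_assoc (Γ * w), ← Matrix.mul_assoc w⁻¹, Matrix.nonsing_inv_mul _ hu,
      Matrix.one_mul]
  rw [eC, eD, ← eA, ← eB]
  simp only [dotProduct, Matrix.mulVec, Matrix.neg_apply, cHess_log_det h2 hp, Matrix.mul_sub,
    Matrix.trace_sub, Matrix.sum_mul, Matrix.trace_sum, Matrix.smul_mul,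
    Matrix.mul_smul, Matrix.trace_smul, smul_eq_mul, Finset.mul_sum, Pi.star_apply,
    RCLike.star_def, ← hw]
  rw [Finset.sum_comm (f := fun j i => conj (X j) * _), ← Finset.sum_sub_distrib]
  refine Finset.sum_congr rfl fun i _ => ?_
  rw [← Finset.sum_sub_distrib]
  refine Finset.sum_congr rfl fun j _ => ?_
  simp only [Matrix.mul_assoc]
  ring

end Vale.Agent.P253Z.Br
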