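import Vale.Agent.P253Z.Br.Defs
import Vale.Agent.P253Z.Br.Loc
import Vale.Agent.P284.H286.K.Meas
import Vale.Agent.P268.Hol

/-!
The Kähler manifold `M` with the bundle `-mK` and a weight, as framed charts.
-/

open scoped Manifold ContDiff Topology Bundle ENNReal ComplexOrder Matrix
open Set Bundle IsManifold MeasureTheory Complex

noncomputable section

namespace Vale.Agent.P253Z.Br

open Vale.Agent.P253.Mfd Vale.Agent.P272.K Vale.Agent.P272.K.C2 Vale.Agent.P284.H608.K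

variable {n : ℕ} {M : Type} [MetricSpace M] [ChartedSpace (Cm n) M] [IsManifold 𝓘(ℂ, Cm n) 1 M]

variable (n) in
/-- the preferred chart at `x` -/
def hcAt (x : M) : HC n M := ⟨chartAt (Cm n) x, chart_mem_maximalAtlas x⟩

theorem mem_hcAt (x : M) : x ∈ (hcAt n x).1.source := mem_chart_source _ x

theorem HC.an (e e' : HC n M) {z : Cm n} (hz : z ∈ e.1.target) (hz' : e.1.symm z ∈ e'.1.source) :
    AnalyticAt ℂ (fun z => e'.1 (e.1.symm z)) z :=
  Vale.Agent.P268.analyticAt_of_differentiableOn (e.1.symm.trans e'.1).open_source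
    ((transition_complex e.2 e'.2).differentiableOn (by simp)) ⟨hz, hz'⟩

theorem HC.an' (e e' : HC n M) {x : M} (hx : x ∈ e.1.source) (hx' : x ∈ e'.1.source) :
    AnalyticAt ℂ (fun z => e'.1 (e.1.symm z)) (e.1 x) :=
  e.an e' (e.1.map_source hx) (by rwa [e.1.left_inv hx])

theorem jd_eq (e e' : HC n M) {z : Cm n} (hz : z ∈ e.1.target) (hz' : e.1.symm z ∈ e'.1.source) :
    jd e.1 e'.1 z = (fderiv ℂ (fun z => e'.1 (e.1.symm z)) z).det := by
  have h := Vale.Agent.P284.H286.K.det_jac e.1 e'.1 (e.1.symm z)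
    (e.an' e' (e.1.map_target hz) hz')
  rw [e.1.right_inv hz] at h
  exact h.symm

omit [ChartedSpace (Cm n) M] [IsManifold 𝓘(ℂ, Cm n) 1 M] in
theorem jd_apply (e e' : OpenPartialHomeomorph M (Cm n)) {x : M} (hx : x ∈ e.source) :
    jd e e' (e x) = (jacM e e' x).det := by rw [jd, e.left_inv hx]

theorem jd_an (e e' : HC n M) {z : Cm n} (hz : z ∈ e.1.target) (hz' : e.1.symm z ∈ e'.1.source) :
    AnalyticAt ℂ (jd e.1 e'.1) z := by
  have h1 : ∀ i j, AnalyticAt ℂ (fun y => fderiv ℂ (fun z => e'.1 (e.1.symm z)) y (ev j) i) z :=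
    fun i j => ((ContinuousLinearMap.proj (R := ℂ) (φ := fun _ : Fin n => ℂ) i).comp
      (ContinuousLinearMap.apply ℂ (Cm n) (ev j))).analyticAt _ |>.comp (e.an e' hz hz').fderiv
  have h2 : AnalyticAt ℂ (fun y => Matrix.det (Matrix.of fun i j =>
      fderiv ℂ (fun z => e'.1 (e.1.symm z)) y (ev j) i)) z := by
    simp only [Matrix.det_apply', Matrix.of_apply]
    exact Finset.analyticAt_fun_sum _ fun σ _ =>
      analyticAt_const.mul (Finset.analyticAt_fun_prod _ fun i _ => h1 _ _)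
  refine h2.congr ?_
  filter_upwards [(e.1.symm.trans e'.1).open_source.mem_nhds ⟨hz, hz'⟩] with y hy
  rw [jd_eq e e' hy.1 hy.2, ContinuousLinearMap.det, ← LinearMap.det_toMatrix']
  rfl

theorem jd_coc (e e' e'' : HC n M) {x : M} (hx : x ∈ e.1.source) (hx' : x ∈ e'.1.source)
    (hx'' : x ∈ e''.1.source) :
    jd e.1 e''.1 (e.1 x) = jd e.1 e'.1 (e.1 x) * jd e'.1 e''.1 (e'.1 x) := by
  have l := e.1.left_inv hx
  have h1 : (fun z => e''.1 (e.1.symm z)) =ᶠ[𝓝 (e.1 x)]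
      (fun z => e''.1 (e'.1.symm z)) ∘ fun z => e'.1 (e.1.symm z) := by
    filter_upwards [(e.1.symm.trans e'.1).open_source.mem_nhds
      ⟨e.1.map_source hx, by simpa [l] using hx'⟩] with y hy
    exact congrArg _ (e'.1.left_inv hy.2).symm
  rw [jd_eq e e'' (e.1.map_source hx) (by rwa [l]), jd_eq e e' (e.1.map_source hx) (by rwa [l]),
    jd_eq e' e'' (e'.1.map_source hx') (by rwa [e'.1.left_inv hx']), h1.fderiv_eq,
    fderiv_comp _ (by rw [l]; exact (e'.an' e'' hx' hx'').differentiableAt)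
      (e.an' e' hx hx').differentiableAt, l, mul_comm]
  exact LinearMap.det_comp _ _

theorem jd_self (e : HC n M) {x : M} (hx : x ∈ e.1.source) : jd e.1 e.1 (e.1 x) = 1 := by
  have h1 : (fun z => e.1 (e.1.symm z)) =ᶠ[𝓝 (e.1 x)] id := by
    filter_upwards [e.1.open_target.mem_nhds (e.1.map_source hx)] with y hy using e.1.right_inv hy
  rw [jd_eq e e (e.1.map_source hx) (by rwa [e.1.left_inv hx]), h1.fderiv_eq, fderiv_id]
  exact LinearMap.det_id

theorem jd_ne (e e' : HC n M) {x : M} (hx : x ∈ e.1.source) (hx' : x ∈ e'.1.source) :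
    jd e.1 e'.1 (e.1 x) ≠ 0 :=
  left_ne_zero_of_mul_eq_one ((jd_coc e e' e hx hx' hx).symm.trans (jd_self e hx))

variable [IsManifold 𝓘(ℝ, Cm n) ∞ M]

theorem sm_of_contMDiff {ψ : M → ℝ} (h : ContMDiff 𝓘(ℝ, Cm n) 𝓘(ℝ, ℝ) ∞ ψ) : Sm n ψ :=
  fun e _ hz => ((h.contMDiffAt).comp _ ((contMDiffOn_symm_of_mem_maximalAtlas
    (mem_maximalAtlas_real e.2)).contMDiffAt (e.1.open_target.mem_nhds hz))).contDiffAt

variable [RiemannianBundle (fun x : M => TangentSpace 𝓘(ℝ, Cm n) x)]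

omit [IsManifold 𝓘(ℂ, Cm n) 1 M] in
theorem wm_eq (e : OpenPartialHomeomorph M (Cm n)) (z : Cm n) : wm e z = wg (chartG e z) := by
  ext j k
  simp only [wm, wg, hf, Matrix.of_apply, single_I]
  rfl

omit [IsManifold 𝓘(ℂ, Cm n) 1 M] in
theorem wm_eq' (e : OpenPartialHomeomorph M (Cm n)) : wm e = fun z => wg (chartG e z) :=
  funext (wm_eq e)

variable [IsContMDiffRiemannianBundle 𝓘(ℝ, Cm n) ∞ (Cm n) (fun x : M => TangentSpace 𝓘(ℝ, Cm n) x)]
  (hK : P253.Mfd.IsKahler (Cm n) M)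

include hK

theorem wm_posDef (e : HC n M) {z : Cm n} (hz : z ∈ e.1.target) : (wm e.1 z).PosDef := by
  rw [wm_eq]
  exact posDef_of (localKahler_chartG hK e.2) hz

theorem wm_smooth (e : HC n M) {z : Cm n} (hz : z ∈ e.1.target) (j k : Fin n) :
    ContDiffAt ℝ ∞ (fun y => wm e.1 y j k) z := by
  rw [wm_eq']
  exact mc_wg (localKahler_chartG hK e.2) hz j k

/-- the Hermitian form of `wm` is `g(u, v) + i g(u, i v)` -/
theorem wm_dot (e : HC n M) {z : Cm n} (hz : z ∈ e.1.target) (u v : Cm n) :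
    u ⬝ᵥ (wm e.1 z *ᵥ star v) =
      (chartMetric e.1 z u v : ℂ) + I * (chartMetric e.1 z u (I • v) : ℂ) := by
  rw [wm_eq]
  exact (herm_of (localKahler_chartG hK e.2) hz).dot u v

theorem wm_dot_self (e : HC n M) {z : Cm n} (hz : z ∈ e.1.target) (v : Cm n) :
    v ⬝ᵥ (wm e.1 z *ᵥ star v) = (chartMetric e.1 z v v : ℂ) := by
  have H := herm_of (localKahler_chartG hK e.2) hz
  rw [wm_eq, H.dot, H.hf_self, chartG_apply]

theorem wm_change (e e' : HC n M) {x : M} (hx : x ∈ e.1.source) (hx' : x ∈ e'.1.source) :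
    wm e.1 (e.1 x) = (jacM e.1 e'.1 x).transpose * wm e'.1 (e'.1 x) *
      (jacM e.1 e'.1 x).map (starRingEnd ℂ) := by
  have hd := (e.an' e' hx hx').differentiableAt
  have h1 : fderiv ℝ (e'.1 ∘ e.1.symm) (e.1 x) =
      (fderiv ℂ (fun z => e'.1 (e.1.symm z)) (e.1 x)).restrictScalars ℝ :=
    (hd.hasFDerivAt.restrictScalars ℝ).fderiv
  rw [wm_eq, wm_eq]
  refine wg_change (herm_of (localKahler_chartG hK e'.2) (e'.1.map_source hx'))
    (A := fderiv ℂ (fun z => e'.1 (e.1.symm z)) (e.1 x)) (fun v => map_smul _ _ _)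
    (fun u v => ?_) fun p i => ?_
  · rw [← chartG_change e.2 e'.2 hx hx' u v, h1]
    rfl
  · rw [jacM, Matrix.of_apply, Vale.Agent.P284.H286.K.dz_hol i (differentiableAt_pi.1 hd p),
      (hasFDerivAt_pi'.1 hd.hasFDerivAt p).fderiv]
    rfl

theorem dw_pos (e : HC n M) {z : Cm n} (hz : z ∈ e.1.target) : 0 < dw e.1 z :=
  det_re_pos (wm_posDef hK e hz)

theorem dw_eq (e : HC n M) {z : Cm n} (hz : z ∈ e.1.target) : (dw e.1 z : ℂ) = (wm e.1 z).det :=
  det_re_eq (wm_posDef hK e hz)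

theorem dw_smooth (e : HC n M) {z : Cm n} (hz : z ∈ e.1.target) : ContDiffAt ℝ ∞ (dw e.1) z :=
  reCLM.contDiff.contDiffAt.comp z (MC.det (m := ∞) (wm_smooth hK e hz))

theorem logdw_smooth (e : HC n M) {z : Cm n} (hz : z ∈ e.1.target) :
    ContDiffAt ℝ ∞ (fun y => Real.log (dw e.1 y)) z :=
  (dw_smooth hK e hz).log (dw_pos hK e hz).ne'

theorem dw_change (e e' : HC n M) {x : M} (hx : x ∈ e.1.source) (hx' : x ∈ e'.1.source) :
    dw e.1 (e.1 x) = ‖jd e.1 e'.1 (e.1 x)‖ ^ 2 * dw e'.1 (e'.1 x) := by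
  have h1 : ((jacM e.1 e'.1 x).map (starRingEnd ℂ)).det =
      (starRingEnd ℂ) (jacM e.1 e'.1 x).det := by
    rw [RingHom.map_det]
    rfl
  rw [dw, dw, jd_apply _ _ hx, wm_change hK e e' hx hx', Matrix.det_mul, Matrix.det_mul,
    Matrix.det_transpose, h1, mul_right_comm, mul_conj, re_ofReal_mul, normSq_eq_norm_sq]

variable [MeasurableSpace M] [BorelSpace M] [IsRiemannianManifold 𝓘(ℝ, Cm n) M] [CompleteSpace M]

theorem isVol_vol : IsVol n (vol n M) := by
  have : ProperSpace M := properSpace_riemannian (Cm n) M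
  have h : ∃ μ : Measure M, IsVol n μ :=
    Vale.Agent.P284.H286.K.measStmt n M (HC n M) (fun e => e.1) (fun e => dw e.1)
      (fun x => ⟨hcAt n x, mem_hcAt x⟩) (fun e e' _ => e.an e')
      (fun e _ hz => (dw_smooth hK e hz).continuousAt.continuousWithinAt)
      (fun e _ hz => dw_pos hK e hz) fun e e' x hx hx' => by
        rw [dw_change hK e e' hx hx', jd_apply _ _ hx]
  rw [vol, dif_pos h]
  exact h.choose_spec

/-- `M` with the bundle `-mK`, whose metric is the metric of `g` times `exp (-ψ)`. -/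
def kaM (m : ℤ) (ψ : M → ℝ) (hψ : Sm n ψ) : KA n M where
  I := HC n M
  e i := i.1
  w i := wm i.1
  φ i z := -m * Real.log (dw i.1 z) + ψ (i.1.symm z)
  a i j z := jd i.1 j.1 z ^ (-m)
  μ := vol n M
  cover x := ⟨hcAt n x, mem_hcAt x⟩
  wsm i _ hz := wm_smooth hK i hz
  wpos i _ hz := wm_posDef hK i hz
  wcl i _ hz j k l := by
    rw [wm_eq']
    exact wg_closed (localKahler_chartG hK i.2) hz j k l
  φsm i z hz := (contDiffAt_const.mul (logdw_smooth hK i hz)).add (hψ i z hz)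
  hol i j _ := i.an j
  wch i j _ := wm_change hK i j
  ahol i j z hz hz' := (jd_an i j hz hz').fun_zpow (by
    have := jd_ne i j (i.1.map_target hz) hz'
    rwa [i.1.right_inv hz] at this)
  coc i j k _ hi hj hk := by rw [jd_coc i j k hi hj hk, mul_zpow]
  aself i _ hi := by rw [jd_self i hi, one_zpow]
  φch i j x hi hj := by
    have h1 := norm_pos_iff.2 (jd_ne i j hi hj)
    have h2 := dw_pos hK j (j.1.map_source hj)
    rw [i.1.left_inv hi, j.1.left_inv hj, dw_change hK i j hi hj, norm_zpow,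
      Real.log_mul (by positivity) h2.ne', Real.log_pow,
      ← Real.exp_log (pow_pos (zpow_pos h1 (-m)) 2), ← Real.exp_add, Real.log_pow, Real.log_zpow]
    congr 1
    push_cast
    ring
  hμ := isVol_vol hK

variable {m : ℤ} {ψ : M → ℝ} (hψ : Sm n ψ)

@[simp] theorem kaM_e (i : HC n M) : (kaM hK m ψ hψ).e i = i.1 := rfl

@[simp] theorem kaM_w (i : HC n M) : (kaM hK m ψ hψ).w i = wm i.1 := rfl

theorem kaM_φ (i : HC n M) (z : Cm n) :
    (kaM hK m ψ hψ).φ i z = -m * Real.log (dw i.1 z) + ψ (i.1.symm z) := rfl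

theorem kaM_a (i j : HC n M) (z : Cm n) : (kaM hK m ψ hψ).a i j z = jd i.1 j.1 z ^ (-m) := rfl

@[simp] theorem kaM_μ : (kaM hK m ψ hψ).μ = vol n M := rfl

/-- the curvature of the bundle -/
theorem kaM_cHess (i : HC n M) {z : Cm n} (hz : z ∈ i.1.target) :
    cHess ((kaM hK m ψ hψ).φ i) z =
      (m : ℂ) • ric i.1 z + cHess (fun y => ψ (i.1.symm y)) z := by
  have h1 : ContDiffAt ℝ 2 _ z := (logdw_smooth hK i hz).of_le (by norm_cast)
  have h2 : ContDiffAt ℝ 2 _ z := (hψ i z hz).of_le (by norm_cast)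
  change cHess (fun y => -m * Real.log (dw i.1 y) + ψ (i.1.symm y)) z = _
  rw [cHess_add (contDiffAt_const.mul h1) h2, cHess_const_mul _ h1, ric, smul_neg, ← neg_smul]
  push_cast
  rfl

theorem kaM_exp (i : HC n M) {z : Cm n} (hz : z ∈ i.1.target) :
    Real.exp (-(kaM hK m ψ hψ).φ i z) = dw i.1 z ^ m * Real.exp (-ψ (i.1.symm z)) := by
  rw [kaM_φ, neg_add, Real.exp_add, neg_mul, neg_neg, ← Real.log_zpow,
    Real.exp_log (zpow_pos (dw_pos hK i hz) m)]

end Vale.Agent.P253Z.Br
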